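import Vale.Agent.P113.Defs
import Vale.Agent.P113.Traj
import Vale.Agent.P113.Unique

/-!
Problem P113, positive answer to Q1: halting detection by particle trajectories of forced
Navier-Stokes flows on the flat torus, started from rest.
-/

open Set Vale.Agent.P113

namespace Vale.Agent.Results.P113.HaltingFlow

/-- There are a point `a` and an open set `O` of the torus such that for every computable `ν > 0`
there is a force compiler such that for every machine `M` and every input `w` the Navier-Stokes
system with viscosity `ν` and force `f M w`, started from rest, has a global smooth solution,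
unique among classical solutions on each `[0,T]`, whose trajectory from `a` enters `O` if and only
if `M` halts on `w`. -/
theorem result :
    ∃ (a : R3) (O : Set (Fin 3 → UnitAddCircle)), IsOpen O ∧
      ∀ ν : ℝ, 0 < ν → IsComputableReal ν →
        ∃ (F : Machine × List ℕ → Nat.Partrec.Code) (f : Machine → List ℕ → ℝ → R3 → R3),
          IsForceCompiler F f ∧
          ∀ (M : Machine) (w : List ℕ), ∃ (u : ℝ → R3 → R3) (p : ℝ → R3 → ℝ),
            IsSmoothSolution ν (f M w) u p ∧
            (∀ T : ℝ, 0 < T → ∀ (v : ℝ → R3 → R3) (q : ℝ → R3 → ℝ),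
              IsClassicalSolution ν T (f M w) v q → ∀ t ∈ Icc 0 T, v t = u t ∧ q t = p t) ∧
            ∃ X : ℝ → R3, IsTrajectory u a X ∧
              (∀ Y : ℝ → R3, IsTrajectory u a Y → ∀ t, 0 ≤ t → Y t = X t) ∧
              ((∃ t, 0 ≤ t ∧ toTorus (X t) ∈ O) ↔ M.Halts w) := by
  refine ⟨0, target, isOpen_target, fun ν hν hc => ?_⟩
  obtain ⟨F, hF, hFc⟩ := exists_compiler hc
  refine ⟨F, fun M w => force ν (M, w), ⟨hF, fun M w => ⟨isSmoothForce ν (M, w), hFc (M, w)⟩,
    1, zero_le_one, fun M => ⟨perForce ν, 1, one_pos, fun t _ => perForce_periodic ν t,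
      fun w t ht => ?_⟩⟩, fun M w => ⟨vel (M, w), fun _ _ => 0, isSmoothSolution ν (M, w), ?_,
      traj (M, w), isTrajectory (M, w), fun Y hY t ht => traj_unique (M, w) hY ht,
      traj_hits_iff (M, w)⟩⟩
  · funext y
    exact force_of_ge ν (M, w) ht y
  · intro T hT v q hv t ht
    exact classical_unique hν.le hT (isClassicalSolution ν (M, w) hT) hv t ht

end Vale.Agent.Results.P113.HaltingFlow
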